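import Vale.Agent.Lib.P335.helper26.Abstract

/-!
Abstract fibrewise Poincare transfer (P335, graph case, block G1).

* `sum_class_eq` : a sum over a fibre of `κ`, computed through an injection onto the fibre.
* `poincare_of_fibres` : a Poincare inequality on every fibre of `κ` gives the corresponding
  inequality for `1 - cexp κ`.
* `fibre_of_param` : the fibre inequality, obtained from a parametrisation of the fibre.
-/

namespace Vale.Agent.Lib.P335.H30

open Finset
open scoped Classical
open Vale.Agent.Lib.P335 Vale.Agent.Lib.P335.Bip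

section Abstract

variable {Ω Ω' K : Type*} [Fintype Ω] [Fintype Ω'] [DecidableEq K]

/-- A sum over the fibre of `κ` through `x0`, computed through an injection onto the fibre. -/
theorem sum_class_eq (κ : Ω → K) (x0 : Ω) (ι : Ω' → Ω) (hinj : Function.Injective ι)
    (himg : ∀ x, κ x = κ x0 ↔ ∃ a, ι a = x) (F : Ω → ℝ) :
    ∑ x ∈ univ.filter (fun x => κ x = κ x0), F x = ∑ a, F (ι a) := by
  have h : univ.filter (fun x => κ x = κ x0) = univ.image ι := by
    ext x
    simp only [mem_filter, mem_univ, true_and, mem_image]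
    exact himg x
  rw [h, Finset.sum_image (fun a _ b _ hab => hinj hab)]

/-- The cardinality of the fibre of `κ` through `x0`, through an injection onto the fibre. -/
theorem card_class_eq (κ : Ω → K) (x0 : Ω) (ι : Ω' → Ω) (hinj : Function.Injective ι)
    (himg : ∀ x, κ x = κ x0 ↔ ∃ a, ι a = x) :
    (univ.filter (fun x => κ x = κ x0)).card = Fintype.card Ω' := by
  have h : univ.filter (fun x => κ x = κ x0) = univ.image ι := by
    ext x
    simp only [mem_filter, mem_univ, true_and, mem_image]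
    exact himg x
  rw [h, Finset.card_image_of_injective _ hinj, Finset.card_univ]

/-- A Poincare inequality on every fibre of `κ` (with respect to the relation `S`) gives the
corresponding inequality for `1 - cexp κ`, with the Dirichlet form restricted to the pairs
inside a fibre. -/
theorem poincare_of_fibres (κ : Ω → K) (S : Ω → Ω → Prop) (C : ℝ) (f : Ω → ℝ)
    (h : ∀ x0 : Ω, C * ∑ x ∈ univ.filter (fun x => κ x = κ x0), (f x - cexp κ f x0) ^ 2
        ≤ ∑ x ∈ univ.filter (fun x => κ x = κ x0), ∑ y ∈ univ.filter (fun y => κ y = κ x0),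
            if S x y then (f x - f y) ^ 2 else 0) :
    C * (ip f f - ip f (cexp κ f))
      ≤ ∑ x, ∑ y, if S x y ∧ κ x = κ y then (f x - f y) ^ 2 else 0 := by
  set F : Ω → ℝ := fun x => (f x - cexp κ f x) ^ 2 with hF
  set E : Ω → ℝ := fun x => ∑ y, if S x y ∧ κ x = κ y then (f x - f y) ^ 2 else 0 with hE
  have h1 : ip f f - ip f (cexp κ f) = ∑ x, cexp κ F x := by
    rw [sum_cexp, ← ip_sub_cexp, ip_eq_sum_sq]
    rfl
  have h2 : (∑ x, ∑ y, if S x y ∧ κ x = κ y then (f x - f y) ^ 2 else 0) = ∑ x, cexp κ E x := by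
    rw [sum_cexp]
  rw [h1, h2, Finset.mul_sum]
  refine Finset.sum_le_sum (fun x0 _ => ?_)
  rw [cexp_apply, cexp_apply, ← mul_div_assoc]
  have hpos := fib_card_pos κ x0
  apply div_le_div_of_nonneg_right _ hpos.le
  have e1 : ∑ x ∈ univ.filter (fun x => κ x = κ x0), F x
      = ∑ x ∈ univ.filter (fun x => κ x = κ x0), (f x - cexp κ f x0) ^ 2 := by
    refine Finset.sum_congr rfl (fun x hx => ?_)
    rw [mem_filter] at hx
    rw [hF]
    simp only
    rw [cexp_congr κ hx.2 f]
  have e2 : ∑ x ∈ univ.filter (fun x => κ x = κ x0), E x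
      = ∑ x ∈ univ.filter (fun x => κ x = κ x0), ∑ y ∈ univ.filter (fun y => κ y = κ x0),
            if S x y then (f x - f y) ^ 2 else 0 := by
    refine Finset.sum_congr rfl (fun x hx => ?_)
    rw [mem_filter] at hx
    rw [hE]
    simp only
    rw [Finset.sum_filter]
    refine Finset.sum_congr rfl (fun y _ => ?_)
    by_cases hy : κ y = κ x0
    · rw [if_pos hy]
      by_cases hS : S x y
      · rw [if_pos hS, if_pos ⟨hS, hx.2.trans hy.symm⟩]
      · rw [if_neg hS, if_neg (fun hh => hS hh.1)]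
    · rw [if_neg hy, if_neg (fun hh => hy (hh.2.symm.trans hx.2))]
  rw [e1, e2]
  exact h x0

/-- The fibre inequality from a parametrisation `ι` of the fibre by a type `Ω'` on which the
Poincare inequality (variance form) holds for a relation `S'` that `ι` maps into `S`. -/
theorem fibre_of_param (κ : Ω → K) (S : Ω → Ω → Prop) (C : ℝ) (f : Ω → ℝ) (x0 : Ω)
    (ι : Ω' → Ω) (hinj : Function.Injective ι) (himg : ∀ x, κ x = κ x0 ↔ ∃ a, ι a = x)
    (S' : Ω' → Ω' → Prop) (hS : ∀ a b, S' a b → S (ι a) (ι b))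
    (hP : C * (∑ a, f (ι a) ^ 2 - (∑ a, f (ι a)) ^ 2 / (Fintype.card Ω' : ℝ))
        ≤ ∑ a, ∑ b, if S' a b then (f (ι a) - f (ι b)) ^ 2 else 0) :
    C * ∑ x ∈ univ.filter (fun x => κ x = κ x0), (f x - cexp κ f x0) ^ 2
        ≤ ∑ x ∈ univ.filter (fun x => κ x = κ x0), ∑ y ∈ univ.filter (fun y => κ y = κ x0),
            if S x y then (f x - f y) ^ 2 else 0 := by
  have hcard := card_class_eq κ x0 ι hinj himg
  have hmean : cexp κ f x0 = (∑ a, f (ι a)) / (Fintype.card Ω' : ℝ) := by
    rw [cexp_apply, sum_class_eq κ x0 ι hinj himg f, hcard]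
  have hpos : 0 < (Fintype.card Ω' : ℝ) := by
    have := fib_card_pos κ x0
    rw [hcard] at this
    exact this
  rw [sum_class_eq κ x0 ι hinj himg (fun x => (f x - cexp κ f x0) ^ 2),
    sum_class_eq κ x0 ι hinj himg
      (fun x => ∑ y ∈ univ.filter (fun y => κ y = κ x0), if S x y then (f x - f y) ^ 2 else 0)]
  have hL : ∑ a, (f (ι a) - cexp κ f x0) ^ 2
      = ∑ a, f (ι a) ^ 2 - (∑ a, f (ι a)) ^ 2 / (Fintype.card Ω' : ℝ) := by
    rw [hmean]
    set s := ∑ a, f (ι a) with hs
    set N := (Fintype.card Ω' : ℝ) with hN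
    have e : ∀ a, (f (ι a) - s / N) ^ 2 = f (ι a) ^ 2 - 2 * (s / N) * f (ι a) + (s / N) ^ 2 := by
      intro a
      ring
    simp only [e]
    rw [Finset.sum_add_distrib, Finset.sum_sub_distrib, ← Finset.mul_sum, Finset.sum_const,
      Finset.card_univ, ← hs, nsmul_eq_mul, ← hN]
    field_simp
    ring
  rw [hL]
  refine hP.trans ?_
  refine Finset.sum_le_sum (fun a _ => ?_)
  rw [sum_class_eq κ x0 ι hinj himg (fun y => if S (ι a) y then (f (ι a) - f y) ^ 2 else 0)]
  refine Finset.sum_le_sum (fun b _ => ?_)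
  by_cases hab : S' a b
  · rw [if_pos hab, if_pos (hS a b hab)]
  · rw [if_neg hab]
    split_ifs
    · positivity
    · exact le_refl 0

end Abstract

end Vale.Agent.Lib.P335.H30
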