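import Vale.Agent.Lib.P335.helper72.GraphDefs
import Vale.Agent.Lib.P335.helper72.GraphConn
import Vale.Agent.Lib.P335.helper19.TwoRow
import Vale.Agent.Lib.P335.helper30.FibrePoincare

/-!
P335, graph case, block G1 (pair fibres): for a vertex pair `p = {x, y}` the fibre of
`G ↦ G - p` through a graph `G0` of `Omega n d` is a two-row margin system
(row 0 = neighbours of `x` other than `y`, row 1 = neighbours of `y` other than `x`), and the
switches of the two-row system are graph switches.  Hence the two-row switch inequality gives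
`4 (1 - GR p) ≤` (switch Dirichlet form inside the `p`-fibres), and summing over the pairs,
`2 ∑_p (1 - GR p) ≤` switch Dirichlet form.
-/

namespace Vale.Agent.Lib.P335.H30

open Finset
open scoped Classical
open Vale.Agent.Lib.P335 Vale.Agent.Lib.P335.Bip Vale.Agent.Lib.P335.Gr
open Vale.Agent.Lib.P335.Bridge

variable {n : ℕ}

/-- The two-row matrix of `G` at the ordered vertex pair `(x, y)`: row `0` is the set of
neighbours of `x` other than `y`, row `1` the set of neighbours of `y` other than `x`. -/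
noncomputable def pmat (x y : Fin n) (G : SimpleGraph (Fin n)) : Mat 2 n :=
  fun i => if i = 0 then univ.filter (fun u => G.Adj x u ∧ u ≠ y)
    else univ.filter (fun u => G.Adj y u ∧ u ≠ x)

theorem mem_pmat_zero (x y : Fin n) (G : SimpleGraph (Fin n)) (u : Fin n) :
    u ∈ pmat x y G 0 ↔ G.Adj x u ∧ u ≠ y := by
  simp [pmat]

theorem mem_pmat_one (x y : Fin n) (G : SimpleGraph (Fin n)) (u : Fin n) :
    u ∈ pmat x y G 1 ↔ G.Adj y u ∧ u ≠ x := by
  simp [pmat]

/-- The graph that agrees with `G0` outside the pair `{x, y}` and on the pair itself, and in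
which the neighbours of `x` (other than `y`) are given by row `0` of `M` and the neighbours of
`y` (other than `x`) by row `1` of `M`. -/
def pgraph (x y : Fin n) (G0 : SimpleGraph (Fin n)) (M : Mat 2 n) : SimpleGraph (Fin n) where
  Adj a b := a ≠ b ∧
    ((a ≠ x ∧ a ≠ y ∧ b ≠ x ∧ b ≠ y ∧ G0.Adj a b) ∨
     (G0.Adj x y ∧ ((a = x ∧ b = y) ∨ (a = y ∧ b = x))) ∨
     (a = x ∧ b ≠ y ∧ b ∈ M 0) ∨ (b = x ∧ a ≠ y ∧ a ∈ M 0) ∨
     (a = y ∧ b ≠ x ∧ b ∈ M 1) ∨ (b = y ∧ a ≠ x ∧ a ∈ M 1))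
  symm := ⟨by
    rintro a b ⟨hab, h⟩
    refine ⟨hab.symm, ?_⟩
    rcases h with ⟨h1, h2, h3, h4, h5⟩ | ⟨h0, ⟨h1, h2⟩ | ⟨h1, h2⟩⟩ | ⟨h1, h2, h3⟩ |
      ⟨h1, h2, h3⟩ | ⟨h1, h2, h3⟩ | ⟨h1, h2, h3⟩
    · exact Or.inl ⟨h3, h4, h1, h2, h5.symm⟩
    · exact Or.inr (Or.inl ⟨h0, Or.inr ⟨h2, h1⟩⟩)
    · exact Or.inr (Or.inl ⟨h0, Or.inl ⟨h2, h1⟩⟩)
    · exact Or.inr (Or.inr (Or.inr (Or.inl ⟨h1, h2, h3⟩)))
    · exact Or.inr (Or.inr (Or.inl ⟨h1, h2, h3⟩))
    · exact Or.inr (Or.inr (Or.inr (Or.inr (Or.inr ⟨h1, h2, h3⟩))))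
    · exact Or.inr (Or.inr (Or.inr (Or.inr (Or.inl ⟨h1, h2, h3⟩))))⟩
  loopless := ⟨fun a h => h.1 rfl⟩

theorem pgraph_adj (x y : Fin n) (G0 : SimpleGraph (Fin n)) (M : Mat 2 n) (a b : Fin n) :
    (pgraph x y G0 M).Adj a b ↔ a ≠ b ∧
    ((a ≠ x ∧ a ≠ y ∧ b ≠ x ∧ b ≠ y ∧ G0.Adj a b) ∨
     (G0.Adj x y ∧ ((a = x ∧ b = y) ∨ (a = y ∧ b = x))) ∨
     (a = x ∧ b ≠ y ∧ b ∈ M 0) ∨ (b = x ∧ a ≠ y ∧ a ∈ M 0) ∨
     (a = y ∧ b ≠ x ∧ b ∈ M 1) ∨ (b = y ∧ a ≠ x ∧ a ∈ M 1)) := Iff.rfl

theorem pgraph_adj_out {x y : Fin n} (G0 : SimpleGraph (Fin n)) (M : Mat 2 n) {a b : Fin n}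
    (hax : a ≠ x) (hay : a ≠ y) (hbx : b ≠ x) (hby : b ≠ y) :
    (pgraph x y G0 M).Adj a b ↔ G0.Adj a b := by
  rw [pgraph_adj]
  constructor
  · rintro ⟨_, h⟩
    rcases h with ⟨_, _, _, _, h5⟩ | ⟨_, ⟨h1, _⟩ | ⟨h1, _⟩⟩ | ⟨h1, _, _⟩ | ⟨h1, _, _⟩ |
      ⟨h1, _, _⟩ | ⟨h1, _, _⟩
    · exact h5
    · exact absurd h1 hax
    · exact absurd h1 hay
    · exact absurd h1 hax
    · exact absurd h1 hbx
    · exact absurd h1 hay
    · exact absurd h1 hby
  · intro h
    exact ⟨G0.ne_of_adj h, Or.inl ⟨hax, hay, hbx, hby, h⟩⟩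

theorem pgraph_adj_xy {x y : Fin n} (hxy : x ≠ y) (G0 : SimpleGraph (Fin n)) (M : Mat 2 n) :
    (pgraph x y G0 M).Adj x y ↔ G0.Adj x y := by
  rw [pgraph_adj]
  constructor
  · rintro ⟨_, h⟩
    rcases h with ⟨h1, _⟩ | ⟨h0, _⟩ | ⟨_, h2, _⟩ | ⟨h1, _, _⟩ | ⟨h1, _, _⟩ | ⟨_, h2, _⟩
    · exact absurd rfl h1
    · exact h0
    · exact absurd rfl h2
    · exact absurd h1 hxy.symm
    · exact absurd h1 hxy
    · exact absurd rfl h2
  · intro h
    exact ⟨hxy, Or.inr (Or.inl ⟨h, Or.inl ⟨rfl, rfl⟩⟩)⟩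

theorem pgraph_adj_x {x y : Fin n} (hxy : x ≠ y) (G0 : SimpleGraph (Fin n)) (M : Mat 2 n)
    {u : Fin n} (hux : u ≠ x) (huy : u ≠ y) :
    (pgraph x y G0 M).Adj x u ↔ u ∈ M 0 := by
  rw [pgraph_adj]
  constructor
  · rintro ⟨_, h⟩
    rcases h with ⟨h1, _⟩ | ⟨_, ⟨_, h2⟩ | ⟨h1, _⟩⟩ | ⟨_, _, h3⟩ | ⟨h1, _, _⟩ | ⟨h1, _, _⟩ |
      ⟨h1, _, _⟩
    · exact absurd rfl h1
    · exact absurd h2 huy
    · exact absurd h1 hxy
    · exact h3
    · exact absurd h1 hux
    · exact absurd h1 hxy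
    · exact absurd h1 huy
  · intro h
    exact ⟨hux.symm, Or.inr (Or.inr (Or.inl ⟨rfl, huy, h⟩))⟩

theorem pgraph_adj_y {x y : Fin n} (hxy : x ≠ y) (G0 : SimpleGraph (Fin n)) (M : Mat 2 n)
    {u : Fin n} (hux : u ≠ x) (huy : u ≠ y) :
    (pgraph x y G0 M).Adj y u ↔ u ∈ M 1 := by
  rw [pgraph_adj]
  constructor
  · rintro ⟨_, h⟩
    rcases h with ⟨_, h2, _⟩ | ⟨_, ⟨h1, _⟩ | ⟨_, h2⟩⟩ | ⟨h1, _, _⟩ | ⟨h1, _, _⟩ | ⟨_, _, h3⟩ |
      ⟨h1, _, _⟩
    · exact absurd rfl h2
    · exact absurd h1 hxy.symm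
    · exact absurd h2 hux
    · exact absurd h1 hxy.symm
    · exact absurd h1 hux
    · exact h3
    · exact absurd h1 huy
  · intro h
    exact ⟨huy.symm, Or.inr (Or.inr (Or.inr (Or.inr (Or.inl ⟨rfl, hux, h⟩))))⟩

/-- Extensionality of graphs relative to a vertex pair. -/
theorem graph_ext_pair {x y : Fin n} {G G' : SimpleGraph (Fin n)}
    (h1 : ∀ a b, a ≠ x → a ≠ y → b ≠ x → b ≠ y → (G.Adj a b ↔ G'.Adj a b))
    (h2 : ∀ u, u ≠ x → u ≠ y → (G.Adj x u ↔ G'.Adj x u))
    (h3 : ∀ u, u ≠ x → u ≠ y → (G.Adj y u ↔ G'.Adj y u))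
    (h4 : G.Adj x y ↔ G'.Adj x y) : G = G' := by
  ext a b
  by_cases hax : a = x
  · subst hax
    by_cases hbx : b = a
    · subst hbx
      simp
    · by_cases hby : b = y
      · subst hby
        exact h4
      · exact h2 b hbx hby
  · by_cases hay : a = y
    · subst hay
      by_cases hbx : b = x
      · subst hbx
        rw [G.adj_comm, G'.adj_comm]
        exact h4
      · by_cases hby : b = a
        · subst hby
          simp
        · exact h3 b hbx hby
    · by_cases hbx : b = x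
      · subst hbx
        rw [G.adj_comm, G'.adj_comm]
        exact h2 a hax hay
      · by_cases hby : b = y
        · subst hby
          rw [G.adj_comm, G'.adj_comm]
          exact h3 a hax hay
        · exact h1 a b hax hay hbx hby

theorem gmask_pair_eq_iff {x y : Fin n} (G G' : SimpleGraph (Fin n)) :
    gmask {x, y} G = gmask {x, y} G' ↔
      ∀ a b, a ≠ x → a ≠ y → b ≠ x → b ≠ y → (G.Adj a b ↔ G'.Adj a b) := by
  rw [gmask_eq_iff]
  constructor
  · intro h a b hax hay hbx hby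
    exact h a b (by simp [hax, hay]) (by simp [hbx, hby])
  · intro h a b ha hb
    simp only [mem_insert, mem_singleton, not_or] at ha hb
    exact h a b ha.1 ha.2 hb.1 hb.2

theorem gmask_pgraph {x y : Fin n} (G0 : SimpleGraph (Fin n)) (M : Mat 2 n) :
    gmask {x, y} (pgraph x y G0 M) = gmask {x, y} G0 := by
  rw [gmask_pair_eq_iff]
  intro a b hax hay hbx hby
  exact pgraph_adj_out G0 M hax hay hbx hby

theorem pmat_pgraph {x y : Fin n} (hxy : x ≠ y) (G0 : SimpleGraph (Fin n)) (M : Mat 2 n)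
    (hx0 : x ∉ M 0) (hy0 : y ∉ M 0) (hx1 : x ∉ M 1) (hy1 : y ∉ M 1) :
    pmat x y (pgraph x y G0 M) = M := by
  funext i
  ext u
  fin_cases i
  · show u ∈ pmat x y (pgraph x y G0 M) 0 ↔ u ∈ M 0
    rw [mem_pmat_zero]
    by_cases hux : u = x
    · subst hux
      simp [hx0]
    · by_cases huy : u = y
      · subst huy
        simp [hy0]
      · rw [pgraph_adj_x hxy G0 M hux huy]
        simp [huy]
  · show u ∈ pmat x y (pgraph x y G0 M) 1 ↔ u ∈ M 1
    rw [mem_pmat_one]
    by_cases hux : u = x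
    · subst hux
      simp [hx1]
    · by_cases huy : u = y
      · subst huy
        simp [hy1]
      · rw [pgraph_adj_y hxy G0 M hux huy]
        simp [hux]

/-- A graph is determined by `G - {x, y}`, its two-row matrix at `(x, y)` and the status of
the pair `xy`. -/
theorem graph_eq_of_pmat {x y : Fin n} {G G' : SimpleGraph (Fin n)}
    (hm : gmask {x, y} G = gmask {x, y} G') (hp : pmat x y G = pmat x y G')
    (h4 : G.Adj x y ↔ G'.Adj x y) : G = G' := by
  rw [gmask_pair_eq_iff] at hm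
  refine graph_ext_pair hm ?_ ?_ h4
  · intro u hux huy
    have h0 : u ∈ pmat x y G 0 ↔ u ∈ pmat x y G' 0 := by rw [hp]
    rw [mem_pmat_zero, mem_pmat_zero] at h0
    exact ⟨fun h => (h0.mp ⟨h, huy⟩).1, fun h => (h0.mpr ⟨h, huy⟩).1⟩
  · intro u hux huy
    have h0 : u ∈ pmat x y G 1 ↔ u ∈ pmat x y G' 1 := by rw [hp]
    rw [mem_pmat_one, mem_pmat_one] at h0
    exact ⟨fun h => (h0.mp ⟨h, hux⟩).1, fun h => (h0.mpr ⟨h, hux⟩).1⟩

/-! ### Degrees -/

theorem deg_eq_sum (G : SimpleGraph (Fin n)) (v : Fin n) :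
    G.degree v = ∑ b : Fin n, if G.Adj v b then 1 else 0 := by
  rw [← SimpleGraph.card_neighborFinset_eq_degree, ← Finset.card_filter]
  congr 1
  ext b
  simp

theorem sum_split2 {x y : Fin n} (hxy : x ≠ y) (φ : Fin n → ℕ) :
    ∑ b, φ b = (∑ b, if b = x ∨ b = y then 0 else φ b) + φ x + φ y := by
  have h : ∀ b, φ b = (if b = x ∨ b = y then 0 else φ b) + (if b = x then φ x else 0)
      + (if b = y then φ y else 0) := by
    intro b
    by_cases hbx : b = x
    · subst hbx
      simp [hxy]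
    · by_cases hby : b = y
      · subst hby
        simp [hbx]
      · simp [hbx, hby]
  calc ∑ b, φ b = ∑ b, ((if b = x ∨ b = y then 0 else φ b) + (if b = x then φ x else 0)
      + (if b = y then φ y else 0)) := Finset.sum_congr rfl (fun b _ => h b)
    _ = _ := by
      rw [Finset.sum_add_distrib, Finset.sum_add_distrib, Finset.sum_ite_eq', Finset.sum_ite_eq']
      simp

/-- The number of neighbours of `u` outside the pair `{x, y}`. -/
noncomputable def odeg (x y : Fin n) (G : SimpleGraph (Fin n)) (u : Fin n) : ℕ :=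
  ∑ b, if b = x ∨ b = y then 0 else (if G.Adj u b then 1 else 0)

theorem colSum_two (M : Mat 2 n) (u : Fin n) :
    colSum M u = (if u ∈ M 0 then 1 else 0) + (if u ∈ M 1 then 1 else 0) := by
  unfold colSum
  rw [Finset.card_filter, Fin.sum_univ_two]

theorem sum_colSum_two (M : Mat 2 n) : ∑ u, colSum M u = (M 0).card + (M 1).card := by
  simp only [colSum_two, Finset.sum_add_distrib]
  congr 1 <;> simp

theorem not_mem_of_colSum_zero (M : Mat 2 n) (u : Fin n) (h : colSum M u = 0) :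
    u ∉ M 0 ∧ u ∉ M 1 := by
  rw [colSum_two, Nat.add_eq_zero_iff] at h
  constructor
  · intro hu
    rw [if_pos hu] at h
    exact one_ne_zero h.1
  · intro hu
    rw [if_pos hu] at h
    exact one_ne_zero h.2

theorem colSum_pmat_x (x y : Fin n) (G : SimpleGraph (Fin n)) : colSum (pmat x y G) x = 0 := by
  rw [colSum_two]
  simp [mem_pmat_zero, mem_pmat_one]

theorem colSum_pmat_y (x y : Fin n) (G : SimpleGraph (Fin n)) : colSum (pmat x y G) y = 0 := by
  rw [colSum_two]
  simp [mem_pmat_zero, mem_pmat_one]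

theorem degree_out {x y : Fin n} (hxy : x ≠ y) (G : SimpleGraph (Fin n)) {u : Fin n}
    (hux : u ≠ x) (huy : u ≠ y) :
    G.degree u = odeg x y G u + colSum (pmat x y G) u := by
  rw [deg_eq_sum, sum_split2 hxy, colSum_two, odeg, add_assoc]
  have e0 : (if G.Adj u x then 1 else 0) = (if u ∈ pmat x y G 0 then 1 else 0) := by
    refine if_congr ?_ rfl rfl
    rw [mem_pmat_zero, G.adj_comm]
    exact ⟨fun h => ⟨h, huy⟩, fun h => h.1⟩
  have e1 : (if G.Adj u y then 1 else 0) = (if u ∈ pmat x y G 1 then 1 else 0) := by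
    refine if_congr ?_ rfl rfl
    rw [mem_pmat_one, G.adj_comm]
    exact ⟨fun h => ⟨h, hux⟩, fun h => h.1⟩
  rw [e0, e1]

theorem degree_x {x y : Fin n} (hxy : x ≠ y) (G : SimpleGraph (Fin n)) :
    G.degree x = (pmat x y G 0).card + (if G.Adj x y then 1 else 0) := by
  rw [deg_eq_sum, sum_split2 hxy]
  have e0 : (if G.Adj x x then 1 else 0) = 0 := by simp
  have e1 : (pmat x y G 0).card
      = ∑ b, if b = x ∨ b = y then 0 else (if G.Adj x b then 1 else 0) := by
    have e : pmat x y G 0 = univ.filter (fun u => G.Adj x u ∧ u ≠ y) := by simp [pmat]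
    rw [e, Finset.card_filter]
    refine Finset.sum_congr rfl (fun b _ => ?_)
    by_cases hbx : b = x
    · subst hbx
      simp
    · by_cases hby : b = y
      · subst hby
        simp
      · simp [hbx, hby]
  rw [e0, e1, add_zero]

theorem degree_y {x y : Fin n} (hxy : x ≠ y) (G : SimpleGraph (Fin n)) :
    G.degree y = (pmat x y G 1).card + (if G.Adj x y then 1 else 0) := by
  rw [deg_eq_sum, sum_split2 hxy]
  have e0 : (if G.Adj y y then 1 else 0) = 0 := by simp
  have e2 : (if G.Adj y x then 1 else 0) = (if G.Adj x y then 1 else 0) :=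
    if_congr (G.adj_comm y x) rfl rfl
  have e1 : (pmat x y G 1).card
      = ∑ b, if b = x ∨ b = y then 0 else (if G.Adj y b then 1 else 0) := by
    have e : pmat x y G 1 = univ.filter (fun u => G.Adj y u ∧ u ≠ x) := by simp [pmat]
    rw [e, Finset.card_filter]
    refine Finset.sum_congr rfl (fun b _ => ?_)
    by_cases hbx : b = x
    · subst hbx
      simp
    · by_cases hby : b = y
      · subst hby
        simp
      · simp [hbx, hby]
  rw [e0, e1, e2, add_zero]

theorem odeg_congr {x y : Fin n} {G G' : SimpleGraph (Fin n)}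
    (h : gmask {x, y} G = gmask {x, y} G') {u : Fin n} (hux : u ≠ x) (huy : u ≠ y) :
    odeg x y G u = odeg x y G' u := by
  rw [gmask_pair_eq_iff] at h
  unfold odeg
  refine Finset.sum_congr rfl (fun b _ => ?_)
  by_cases hb : b = x ∨ b = y
  · rw [if_pos hb, if_pos hb]
  · rw [if_neg hb, if_neg hb]
    rw [not_or] at hb
    exact if_congr (h u b hux huy hb.1 hb.2) rfl rfl

/-- Two graphs with the same degrees that agree outside the pair `{x, y}` agree on the pair
`xy`, and their two-row matrices have the same margins. -/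
theorem pmat_margins {x y : Fin n} (hxy : x ≠ y) {G G0 : SimpleGraph (Fin n)}
    (hdeg : ∀ v, G.degree v = G0.degree v) (h : gmask {x, y} G = gmask {x, y} G0) :
    (G.Adj x y ↔ G0.Adj x y) ∧ (∀ i, (pmat x y G i).card = (pmat x y G0 i).card) ∧
      ∀ u, colSum (pmat x y G) u = colSum (pmat x y G0) u := by
  have hc : ∀ u, colSum (pmat x y G) u = colSum (pmat x y G0) u := by
    intro u
    by_cases hux : u = x
    · subst hux
      rw [colSum_pmat_x, colSum_pmat_x]
    · by_cases huy : u = y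
      · subst huy
        rw [colSum_pmat_y, colSum_pmat_y]
      · have h1 := degree_out hxy G hux huy
        have h2 := degree_out hxy G0 hux huy
        rw [hdeg u, h2, odeg_congr h hux huy] at h1
        exact (Nat.add_left_cancel h1).symm
  have hs : (pmat x y G 0).card + (pmat x y G 1).card
      = (pmat x y G0 0).card + (pmat x y G0 1).card := by
    rw [← sum_colSum_two, ← sum_colSum_two]
    exact Finset.sum_congr rfl (fun u _ => hc u)
  have hx1 := degree_x hxy G
  have hx2 := degree_x hxy G0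
  have hy1 := degree_y hxy G
  have hy2 := degree_y hxy G0
  rw [hdeg x] at hx1
  rw [hdeg y] at hy1
  have hadj : G.Adj x y ↔ G0.Adj x y := by
    by_cases h1 : G.Adj x y <;> by_cases h2 : G0.Adj x y
    · exact ⟨fun _ => h2, fun _ => h1⟩
    · exfalso
      rw [if_pos h1] at hx1 hy1
      rw [if_neg h2] at hx2 hy2
      omega
    · exfalso
      rw [if_neg h1] at hx1 hy1
      rw [if_pos h2] at hx2 hy2
      omega
    · exact ⟨fun h => absurd h h1, fun h => absurd h h2⟩
  refine ⟨hadj, ?_, hc⟩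
  intro i
  have e : (if G.Adj x y then 1 else 0) = (if G0.Adj x y then 1 else 0) := if_congr hadj rfl rfl
  rw [e] at hx1 hy1
  fin_cases i
  · show (pmat x y G 0).card = (pmat x y G0 0).card
    omega
  · show (pmat x y G 1).card = (pmat x y G0 1).card
    omega

/-- The graph built from a two-row matrix with the margins of `pmat x y G0` has the degrees
of `G0`. -/
theorem pgraph_degree {x y : Fin n} (hxy : x ≠ y) (G0 : SimpleGraph (Fin n)) (M : Mat 2 n)
    (hr : ∀ i, (M i).card = (pmat x y G0 i).card)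
    (hc : ∀ u, colSum M u = colSum (pmat x y G0) u) (v : Fin n) :
    (pgraph x y G0 M).degree v = G0.degree v := by
  obtain ⟨hx0, hx1⟩ := not_mem_of_colSum_zero M x (by rw [hc x, colSum_pmat_x])
  obtain ⟨hy0, hy1⟩ := not_mem_of_colSum_zero M y (by rw [hc y, colSum_pmat_y])
  have hpm := pmat_pgraph hxy G0 M hx0 hy0 hx1 hy1
  by_cases hvx : v = x
  · subst hvx
    rw [degree_x hxy (pgraph v y G0 M), degree_x hxy G0, hpm, hr 0]
    congr 1
    exact if_congr (pgraph_adj_xy hxy G0 M) rfl rfl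
  · by_cases hvy : v = y
    · subst hvy
      rw [degree_y hxy (pgraph x v G0 M), degree_y hxy G0, hpm, hr 1]
      congr 1
      exact if_congr (pgraph_adj_xy hxy G0 M) rfl rfl
    · rw [degree_out hxy (pgraph x y G0 M) hvx hvy, degree_out hxy G0 hvx hvy, hpm, hc v,
        odeg_congr (gmask_pgraph G0 M) hvx hvy]

/-! ### Switches -/

theorem sym2_ne_left {a b x z : Fin n} (hax : a ≠ x) (hbx : b ≠ x) : s(a, b) ≠ s(x, z) := by
  intro h
  rcases Sym2.eq_iff.mp h with ⟨h1, _⟩ | ⟨_, h2⟩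
  · exact hax h1
  · exact hbx h2

theorem sym2_ne_right {a b x z : Fin n} (hax : a ≠ x) (hbx : b ≠ x) : s(a, b) ≠ s(z, x) := by
  intro h
  rcases Sym2.eq_iff.mp h with ⟨_, h2⟩ | ⟨h1, _⟩
  · exact hbx h2
  · exact hax h1

/-- Adjacency at the last vertex of a switch. -/
theorem gsw_adj_last (G : SimpleGraph (Fin n)) {a b c e : Fin n} (hea : e ≠ a) (heb : e ≠ b)
    (hec : e ≠ c) (u : Fin n) :
    (SimpleGraph.fromEdgeSet ((G.edgeSet \ {s(a, b), s(c, e)}) ∪ {s(a, c), s(b, e)})).Adj e u ↔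
      (G.Adj e u ∧ u ≠ c) ∨ u = b := by
  have h := H72.gsw_adj_first G (a := e) (b := c) (c := b) (e := a) hec heb hea u
  have e1 : ({s(a, b), s(c, e)} : Set (Sym2 (Fin n))) = {s(e, c), s(b, a)} := by
    rw [Set.pair_comm (s(a, b)) (s(c, e)), Sym2.eq_swap (a := c) (b := e),
      Sym2.eq_swap (a := a) (b := b)]
  have e2 : ({s(a, c), s(b, e)} : Set (Sym2 (Fin n))) = {s(e, b), s(c, a)} := by
    rw [Set.pair_comm (s(a, c)) (s(b, e)), Sym2.eq_swap (a := b) (b := e),
      Sym2.eq_swap (a := a) (b := c)]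
  rw [e1, e2]
  exact h

/-- A switch of the two-row matrix is a switch of the graph. -/
theorem pgraph_switch {x y : Fin n} (hxy : x ≠ y) (G0 : SimpleGraph (Fin n)) (M M' : Mat 2 n)
    (hx0 : x ∉ M 0) (hy0 : y ∉ M 0) (hx1 : x ∉ M 1) (hy1 : y ∉ M 1)
    {j j' : Fin n} (hjj : j ≠ j') (h1 : j ∈ M 0) (h2 : j' ∉ M 0) (h3 : j' ∈ M 1) (h4 : j ∉ M 1)
    (e0 : M' 0 = insert j' ((M 0).erase j)) (e1 : M' 1 = insert j ((M 1).erase j')) :
    GSwitch (pgraph x y G0 M) (pgraph x y G0 M') := by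
  have hjx : j ≠ x := fun h => hx0 (h ▸ h1)
  have hjy : j ≠ y := fun h => hy0 (h ▸ h1)
  have hj'x : j' ≠ x := fun h => hx1 (h ▸ h3)
  have hj'y : j' ≠ y := fun h => hy1 (h ▸ h3)
  refine ⟨x, j, j', y, hjx.symm, hj'x.symm, hxy, hjj, hjy, hj'y, ?_, ?_, ?_, ?_, ?_⟩
  · exact (pgraph_adj_x hxy G0 M hjx hjy).mpr h1
  · rw [SimpleGraph.adj_comm]
    exact (pgraph_adj_y hxy G0 M hj'x hj'y).mpr h3
  · rw [pgraph_adj_x hxy G0 M hj'x hj'y]
    exact h2
  · rw [SimpleGraph.adj_comm, pgraph_adj_y hxy G0 M hjx hjy]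
    exact h4
  · refine graph_ext_pair (x := x) (y := y) ?_ ?_ ?_ ?_
    · intro a b hax hay hbx hby
      rw [pgraph_adj_out G0 M' hax hay hbx hby, H72.gsw_adj,
        pgraph_adj_out G0 M hax hay hbx hby]
      constructor
      · intro h
        exact ⟨Or.inl ⟨h, sym2_ne_left hax hbx, sym2_ne_right hay hby⟩, G0.ne_of_adj h⟩
      · rintro ⟨h | h | h, _⟩
        · exact h.1
        · exact absurd h (sym2_ne_left hax hbx)
        · exact absurd h (sym2_ne_right hay hby)
    · intro u hux huy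
      rw [pgraph_adj_x hxy G0 M' hux huy, H72.gsw_adj_first _ hjx.symm hj'x.symm hxy,
        pgraph_adj_x hxy G0 M hux huy, e0, mem_insert, mem_erase]
      constructor
      · rintro (h | ⟨h, h'⟩)
        · exact Or.inr h
        · exact Or.inl ⟨h', h⟩
      · rintro (⟨h, h'⟩ | h)
        · exact Or.inr ⟨h', h⟩
        · exact Or.inl h
    · intro u hux huy
      rw [pgraph_adj_y hxy G0 M' hux huy, gsw_adj_last _ hxy.symm hjy.symm hj'y.symm,
        pgraph_adj_y hxy G0 M hux huy, e1, mem_insert, mem_erase]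
      constructor
      · rintro (h | ⟨h, h'⟩)
        · exact Or.inr h
        · exact Or.inl ⟨h', h⟩
      · rintro (⟨h, h'⟩ | h)
        · exact Or.inr ⟨h', h⟩
        · exact Or.inl h
    · rw [pgraph_adj_xy hxy G0 M', H72.gsw_adj_first _ hjx.symm hj'x.symm hxy,
        pgraph_adj_xy hxy G0 M]
      constructor
      · intro h
        exact Or.inl ⟨h, hjy.symm⟩
      · rintro (h | h)
        · exact h.1
        · exact absurd h hj'y.symm

/-! ### The parametrisation of a pair fibre -/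

/-- The parametrisation of the `{x, y}`-fibre through `G0` by the two-row margin system with
the margins of `pmat x y G0`. -/
noncomputable def iota {d : Fin n → ℕ} {x y : Fin n} (hxy : x ≠ y) (G0 : Omega n d)
    (M : Om 2 n (fun i => (pmat x y G0.1 i).card) (colSum (pmat x y G0.1))) : Omega n d :=
  ⟨pgraph x y G0.1 M.1, fun v => by
    rw [pgraph_degree hxy G0.1 M.1 M.2.1 M.2.2 v]
    exact G0.2 v⟩

theorem iota_val {d : Fin n → ℕ} {x y : Fin n} (hxy : x ≠ y) (G0 : Omega n d)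
    (M : Om 2 n (fun i => (pmat x y G0.1 i).card) (colSum (pmat x y G0.1))) :
    (iota hxy G0 M).1 = pgraph x y G0.1 M.1 := rfl

theorem om_not_mem {d : Fin n → ℕ} {x y : Fin n} (G0 : Omega n d)
    (M : Om 2 n (fun i => (pmat x y G0.1 i).card) (colSum (pmat x y G0.1))) :
    x ∉ M.1 0 ∧ y ∉ M.1 0 ∧ x ∉ M.1 1 ∧ y ∉ M.1 1 := by
  obtain ⟨hx0, hx1⟩ := not_mem_of_colSum_zero M.1 x (by rw [M.2.2 x, colSum_pmat_x])
  obtain ⟨hy0, hy1⟩ := not_mem_of_colSum_zero M.1 y (by rw [M.2.2 y, colSum_pmat_y])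
  exact ⟨hx0, hy0, hx1, hy1⟩

theorem iota_injective {d : Fin n → ℕ} {x y : Fin n} (hxy : x ≠ y) (G0 : Omega n d) :
    Function.Injective (iota hxy G0) := by
  intro a b hab
  have h : pgraph x y G0.1 a.1 = pgraph x y G0.1 b.1 := congrArg Subtype.val hab
  obtain ⟨a1, a2, a3, a4⟩ := om_not_mem G0 a
  obtain ⟨b1, b2, b3, b4⟩ := om_not_mem G0 b
  apply Subtype.ext
  calc a.1 = pmat x y (pgraph x y G0.1 a.1) := (pmat_pgraph hxy G0.1 a.1 a1 a2 a3 a4).symm
    _ = pmat x y (pgraph x y G0.1 b.1) := by rw [h]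
    _ = b.1 := pmat_pgraph hxy G0.1 b.1 b1 b2 b3 b4

theorem iota_image {d : Fin n → ℕ} {x y : Fin n} (hxy : x ≠ y) (G0 G : Omega n d) :
    gmask {x, y} G.1 = gmask {x, y} G0.1 ↔ ∃ a, iota hxy G0 a = G := by
  constructor
  · intro h
    obtain ⟨hadj, hr, hc⟩ := pmat_margins hxy (G := G.1) (G0 := G0.1)
      (fun v => by rw [G.2 v, G0.2 v]) h
    refine ⟨⟨pmat x y G.1, hr, hc⟩, ?_⟩
    apply Subtype.ext
    show pgraph x y G0.1 (pmat x y G.1) = G.1
    refine graph_eq_of_pmat (x := x) (y := y) ?_ ?_ ?_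
    · rw [gmask_pgraph, h]
    · refine pmat_pgraph hxy G0.1 _ ?_ ?_ ?_ ?_
      · simp [mem_pmat_zero]
      · simp [mem_pmat_zero]
      · simp [mem_pmat_one]
      · simp [mem_pmat_one]
    · rw [pgraph_adj_xy hxy]
      exact hadj.symm
  · rintro ⟨a, rfl⟩
    exact gmask_pgraph G0.1 a.1

theorem iota_switch {d : Fin n → ℕ} {x y : Fin n} (hxy : x ≠ y) (G0 : Omega n d)
    (a b : Om 2 n (fun i => (pmat x y G0.1 i).card) (colSum (pmat x y G0.1)))
    (h : IsSwitch a.1 b.1) : GSwitch (iota hxy G0 a).1 (iota hxy G0 b).1 := by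
  obtain ⟨i, i', j, j', -, -, hii, hjj, h1, h2, h3, h4, hb⟩ := h
  obtain ⟨hx0, hy0, hx1, hy1⟩ := om_not_mem G0 a
  rw [iota_val, iota_val]
  have key : ∀ i i' : Fin 2, i ≠ i' → (i = 0 ∧ i' = 1) ∨ (i = 1 ∧ i' = 0) := by decide
  rcases key i i' hii with ⟨rfl, rfl⟩ | ⟨rfl, rfl⟩
  · refine pgraph_switch hxy G0.1 a.1 b.1 hx0 hy0 hx1 hy1 hjj h1 h2 h3 h4 ?_ ?_
    · rw [hb]
      simp [swMat]
    · rw [hb]
      simp [swMat]
  · refine pgraph_switch hxy G0.1 a.1 b.1 hx0 hy0 hx1 hy1 hjj.symm h3 h4 h1 h2 ?_ ?_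
    · rw [hb]
      simp [swMat]
    · rw [hb]
      simp [swMat]

/-! ### The pair inequality -/

/-- **Pair fibres (block G1).**  Given the two-row switch inequality for all margin systems
with two rows, for every vertex pair `p` the switch Dirichlet form restricted to the pairs of
graphs in a common `p`-fibre dominates `4 (1 - GR p)`. -/
theorem graph_pair
    (h2 : ∀ (k : ℕ) (r : Fin 2 → ℕ) (c : Fin k → ℕ) (g : Om 2 k r c → ℝ),
      4 * (ip g g - ip g (R univ g)) ≤ ∑ a, ∑ b, if IsSwitch a.1 b.1 then (g a - g b) ^ 2 else 0)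
    {d : Fin n → ℕ} (p : Finset (Fin n)) (hp : p.card = 2) (f : Omega n d → ℝ) :
    4 * (ip f f - ip f (GR p f))
      ≤ ∑ G : Omega n d, ∑ G' : Omega n d,
          if GSwitch G.1 G'.1 ∧ gmask p G.1 = gmask p G'.1 then (f G - f G') ^ 2 else 0 := by
  obtain ⟨x, y, hxy, rfl⟩ := Finset.card_eq_two.mp hp
  refine poincare_of_fibres (fun G : Omega n d => gmask {x, y} G.1)
    (fun G G' => GSwitch G.1 G'.1) 4 f ?_
  intro G0
  refine fibre_of_param (fun G : Omega n d => gmask {x, y} G.1) (fun G G' => GSwitch G.1 G'.1)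
    4 f G0 (iota hxy G0) (iota_injective hxy G0) (iota_image hxy G0)
    (fun a b => IsSwitch a.1 b.1) (iota_switch hxy G0) ?_
  have key := h2 n _ _ (fun M => f (iota hxy G0 M))
  rw [H19.var_eq] at key
  exact key

/-! ### Summation over the pairs -/

/-- A switch changes the four pairs of a 4-cycle, so at most two vertex pairs `p` satisfy
`G - p = G' - p` when `G'` is a switch of `G`. -/
theorem pair_count {G G' : SimpleGraph (Fin n)} (h : GSwitch G G') :
    (((univ : Finset (Fin n)).powersetCard 2).filter (fun p => gmask p G = gmask p G')).card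
      ≤ 2 := by
  obtain ⟨a, b, c, e, hab, hac, hae, hbc, hbe, hce, h1, h2, h3, h4, rfl⟩ := h
  have hsub : ((univ : Finset (Fin n)).powersetCard 2).filter (fun p => gmask p G = gmask p
      (SimpleGraph.fromEdgeSet ((G.edgeSet \ {s(a, b), s(c, e)}) ∪ {s(a, c), s(b, e)})))
      ⊆ {{a, e}, {b, c}} := by
    intro p hp
    rw [mem_filter, mem_powersetCard] at hp
    obtain ⟨⟨-, hp2⟩, hm⟩ := hp
    rw [gmask_eq_iff] at hm
    -- the four changed pairs
    have k1 : a ∈ p ∨ b ∈ p := by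
      by_contra hcon
      rw [not_or] at hcon
      have := (hm a b hcon.1 hcon.2).mp h1
      rw [H72.gsw_adj_first G hab hac hae] at this
      rcases this with ⟨_, h⟩ | h
      · exact h rfl
      · exact hbc h
    have k2 : a ∈ p ∨ c ∈ p := by
      by_contra hcon
      rw [not_or] at hcon
      have := (hm a c hcon.1 hcon.2).mpr
        ((H72.gsw_adj_first G hab hac hae c).mpr (Or.inr rfl))
      exact h3 this
    have k3 : e ∈ p ∨ c ∈ p := by
      by_contra hcon
      rw [not_or] at hcon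
      have := (hm e c hcon.1 hcon.2).mp h2.symm
      rw [gsw_adj_last G hae.symm hbe.symm hce.symm] at this
      rcases this with ⟨_, h⟩ | h
      · exact h rfl
      · exact hbc h.symm
    have k4 : e ∈ p ∨ b ∈ p := by
      by_contra hcon
      rw [not_or] at hcon
      have := (hm e b hcon.1 hcon.2).mpr
        ((gsw_adj_last G hae.symm hbe.symm hce.symm b).mpr (Or.inr rfl))
      exact h4 this.symm
    have three : ∀ u v w : Fin n, u ≠ v → u ≠ w → v ≠ w → u ∈ p → v ∈ p → w ∈ p → False := by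
      intro u v w huv huw hvw hu hv hw
      have hs : ({u, v, w} : Finset (Fin n)) ⊆ p := by
        intro z hz
        simp only [mem_insert, mem_singleton] at hz
        rcases hz with rfl | rfl | rfl
        · exact hu
        · exact hv
        · exact hw
      have hcard := Finset.card_le_card hs
      rw [Finset.card_eq_three.mpr ⟨u, v, w, huv, huw, hvw, rfl⟩, hp2] at hcard
      omega
    have two : ∀ u v : Fin n, u ≠ v → u ∈ p → v ∈ p → p = {u, v} := by
      intro u v huv hu hv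
      have hs : ({u, v} : Finset (Fin n)) ⊆ p := by
        intro z hz
        simp only [mem_insert, mem_singleton] at hz
        rcases hz with rfl | rfl
        · exact hu
        · exact hv
      exact (Finset.eq_of_subset_of_card_le hs (by rw [hp2, Finset.card_pair huv])).symm
    rw [mem_insert, mem_singleton]
    by_cases ha : a ∈ p
    · by_cases he : e ∈ p
      · exact Or.inl (two a e hae ha he)
      · exfalso
        have hc : c ∈ p := k3.resolve_left he
        have hb : b ∈ p := k4.resolve_left he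
        exact three a b c hab hac hbc ha hb hc
    · have hb : b ∈ p := k1.resolve_left ha
      have hc : c ∈ p := k2.resolve_left ha
      exact Or.inr (two b c hbc hb hc)
  exact (Finset.card_le_card hsub).trans Finset.card_le_two

/-- **L ≥ H for graphs (block G1, summed form).**  Given the two-row switch inequality, the
switch Dirichlet form on `Omega n d` dominates `2 ∑_p (1 - GR p)`, the sum over all vertex
pairs `p`. -/
theorem graph_pair_sum
    (h2 : ∀ (k : ℕ) (r : Fin 2 → ℕ) (c : Fin k → ℕ) (g : Om 2 k r c → ℝ),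
      4 * (ip g g - ip g (R univ g)) ≤ ∑ a, ∑ b, if IsSwitch a.1 b.1 then (g a - g b) ^ 2 else 0)
    {d : Fin n → ℕ} (f : Omega n d → ℝ) :
    2 * ∑ p ∈ (univ : Finset (Fin n)).powersetCard 2, (ip f f - ip f (GR p f))
      ≤ ∑ G : Omega n d, ∑ G' : Omega n d,
          if GSwitch G.1 G'.1 then (f G - f G') ^ 2 else 0 := by
  have h1 : ∑ p ∈ (univ : Finset (Fin n)).powersetCard 2, 4 * (ip f f - ip f (GR p f))
      ≤ ∑ p ∈ (univ : Finset (Fin n)).powersetCard 2, ∑ G : Omega n d, ∑ G' : Omega n d,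
          if GSwitch G.1 G'.1 ∧ gmask p G.1 = gmask p G'.1 then (f G - f G') ^ 2 else 0 :=
    Finset.sum_le_sum (fun p hp => graph_pair h2 p (mem_powersetCard.mp hp).2 f)
  have h3 : ∑ p ∈ (univ : Finset (Fin n)).powersetCard 2, ∑ G : Omega n d, ∑ G' : Omega n d,
          (if GSwitch G.1 G'.1 ∧ gmask p G.1 = gmask p G'.1 then (f G - f G') ^ 2 else 0)
      ≤ 2 * ∑ G : Omega n d, ∑ G' : Omega n d,
          if GSwitch G.1 G'.1 then (f G - f G') ^ 2 else 0 := by
    rw [Finset.sum_comm, Finset.mul_sum]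
    refine Finset.sum_le_sum (fun G _ => ?_)
    rw [Finset.sum_comm, Finset.mul_sum]
    refine Finset.sum_le_sum (fun G' _ => ?_)
    by_cases hsw : GSwitch G.1 G'.1
    · simp only [hsw, true_and, if_true]
      rw [← Finset.sum_filter, Finset.sum_const, nsmul_eq_mul]
      have hcard := pair_count hsw
      have ht : 0 ≤ (f G - f G') ^ 2 := sq_nonneg _
      have hc2 : ((((univ : Finset (Fin n)).powersetCard 2).filter
          (fun p => gmask p G.1 = gmask p G'.1)).card : ℝ) ≤ 2 := by exact_mod_cast hcard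
      exact mul_le_mul_of_nonneg_right hc2 ht
    · simp [hsw]
  rw [← Finset.mul_sum] at h1
  linarith

end Vale.Agent.Lib.P335.H30
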