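import Vale.Agent.Lib.P335.helper85.TauDefs
import Vale.Agent.Lib.P335.helper45.PairDefs

/-!
P335, graph case: bridge between the two sets of definitions of the 4-cycle switch `tau` and
of the correction term `K` (`H85` = helper85/TauDefs, `H45G` = helper45/PairDefs).
For pairwise distinct `x y z w` the two switches and the two correction terms coincide.
-/

namespace Vale.Agent.Lib.P335.H30

open Finset
open scoped Classical
open Vale.Agent.Lib.P335 Vale.Agent.Lib.P335.Bip Vale.Agent.Lib.P335.Gr

variable {n : ℕ}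

/-- Conditional expectations for two maps with the same fibres coincide. -/
theorem cexp_congr_fibres {Ω K K' : Type*} [Fintype Ω] [DecidableEq K] [DecidableEq K']
    (κ : Ω → K) (κ' : Ω → K') (h : ∀ x y, κ x = κ y ↔ κ' x = κ' y) : cexp κ = cexp κ' := by
  apply LinearMap.ext
  intro f
  funext x
  rw [cexp_apply, cexp_apply]
  have e : univ.filter (fun y => κ y = κ x) = univ.filter (fun y => κ' y = κ' x) := by
    ext y
    simp only [mem_filter, mem_univ, true_and]
    exact h y x
  rw [e]

/-- `Sep` is the disjunction of the two matchings. -/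
theorem sep_iff (x y z w : Fin n) (G : SimpleGraph (Fin n)) :
    H45G.Sep x y z w G ↔ H85.Mat1 x y z w G ∨ H85.Mat1 x y w z G := Iff.rfl

/-- Adjacency in the switched graph of `H85` in the form of `H45G`. -/
theorem tauG_adj' {x y z w : Fin n} (h4 : H85.Four x y z w) (G : SimpleGraph (Fin n))
    (a b : Fin n) :
    (H85.tauG x y z w G).Adj a b ↔
      a ≠ b ∧ (G.Adj a b ↔ ¬ (H45G.Sep x y z w G ∧ H45G.IsCross x y z w a b)) := by
  have hxy := h4.xy
  have hxz := h4.xz
  have hxw := h4.xw
  have hyz := h4.yz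
  have hyw := h4.yw
  have hzw := h4.zw
  by_cases hc : H45G.IsCross x y z w a b
  · -- a cross pair
    have hab : a ≠ b := by
      rcases hc with ⟨rfl | rfl, rfl | rfl⟩ | ⟨rfl | rfl, rfl | rfl⟩
      · exact hxz
      · exact hxw
      · exact hyz
      · exact hyw
      · exact hxz.symm
      · exact hyz.symm
      · exact hxw.symm
      · exact hyw.symm
    by_cases hS : H45G.Sep x y z w G
    · have key : (H85.tauG x y z w G).Adj a b ↔ ¬ G.Adj a b := by
        rcases hS with c1 | c2
        · have m := H85.tauG_mat1 h4 c1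
          obtain ⟨g1, g2, g3, g4⟩ := c1
          obtain ⟨t1, t2, t3, t4⟩ := m
          rcases hc with ⟨rfl | rfl, rfl | rfl⟩ | ⟨rfl | rfl, rfl | rfl⟩
          · exact ⟨fun h => absurd h t3, fun h => absurd g1 h⟩
          · exact ⟨fun _ => g3, fun _ => t1⟩
          · exact ⟨fun _ => g4, fun _ => t2⟩
          · exact ⟨fun h => absurd h t4, fun h => absurd g2 h⟩
          · exact ⟨fun h => absurd h.symm t3, fun h => absurd g1.symm h⟩
          · exact ⟨fun _ => fun h => g4 h.symm, fun _ => t2.symm⟩
          · exact ⟨fun _ => fun h => g3 h.symm, fun _ => t1.symm⟩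
          · exact ⟨fun h => absurd h.symm t4, fun h => absurd g2.symm h⟩
        · have m := H85.tauG_mat1' h4 c2
          obtain ⟨g1, g2, g3, g4⟩ := c2
          obtain ⟨t1, t2, t3, t4⟩ := m
          rcases hc with ⟨rfl | rfl, rfl | rfl⟩ | ⟨rfl | rfl, rfl | rfl⟩
          · exact ⟨fun _ => g3, fun _ => t1⟩
          · exact ⟨fun h => absurd h t3, fun h => absurd g1 h⟩
          · exact ⟨fun h => absurd h t4, fun h => absurd g2 h⟩
          · exact ⟨fun _ => g4, fun _ => t2⟩
          · exact ⟨fun _ => fun h => g3 h.symm, fun _ => t1.symm⟩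
          · exact ⟨fun h => absurd h.symm t4, fun h => absurd g2.symm h⟩
          · exact ⟨fun h => absurd h.symm t3, fun h => absurd g1.symm h⟩
          · exact ⟨fun _ => fun h => g4 h.symm, fun _ => t2.symm⟩
      rw [key]
      constructor
      · intro h
        exact ⟨hab, ⟨fun h' => absurd h' h, fun h' => absurd ⟨hS, hc⟩ h'⟩⟩
      · rintro ⟨_, h⟩ h'
        exact (h.mp h') ⟨hS, hc⟩
    · have hS' : ¬ H85.Mat1 x y z w G ∧ ¬ H85.Mat1 x y w z G :=
        ⟨fun h => hS (Or.inl h), fun h => hS (Or.inr h)⟩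
      rw [H85.tauG_neg hS'.1 hS'.2]
      constructor
      · intro h
        exact ⟨hab, ⟨fun _ => fun h' => hS h'.1, fun _ => h⟩⟩
      · rintro ⟨_, h⟩
        exact h.mpr (fun h' => hS h'.1)
  · -- not a cross pair: unchanged
    have hne : ∀ u v : Fin n, ((u = x ∨ u = y) ∧ (v = z ∨ v = w)) → s(a, b) ≠ s(u, v) := by
      intro u v huv h
      apply hc
      rcases Sym2.eq_iff.mp h with ⟨h1, h2⟩ | ⟨h1, h2⟩
      · left
        rw [h1, h2]
        exact huv
      · right
        rw [h1, h2]
        exact ⟨huv.2, huv.1⟩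
    rw [H85.tauG_adj_other h4 G (hne x z ⟨Or.inl rfl, Or.inl rfl⟩)
      (hne y w ⟨Or.inr rfl, Or.inr rfl⟩) (hne x w ⟨Or.inl rfl, Or.inr rfl⟩)
      (hne y z ⟨Or.inr rfl, Or.inl rfl⟩)]
    constructor
    · intro h
      exact ⟨G.ne_of_adj h, ⟨fun _ => fun h' => hc h'.2, fun _ => h⟩⟩
    · rintro ⟨_, h⟩
      exact h.mpr (fun h' => hc h'.2)

/-- The two graph-level switches coincide. -/
theorem tauG_eq {x y z w : Fin n} (h4 : H85.Four x y z w) (G : SimpleGraph (Fin n)) :
    H85.tauG x y z w G = H45G.tauG x y z w G := by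
  ext a b
  rw [tauG_adj' h4 G a b, H45G.tauG_adj]

variable {d : Fin n → ℕ}

/-- The two switch involutions on `Omega n d` coincide. -/
theorem tau_eq {x y z w : Fin n} (h4 : H85.Four x y z w) (G : Omega n d) :
    H85.tau x y z w G = H45G.tau x y z w G := by
  have hdeg : ∀ v, (H45G.tauG x y z w G.1).degree v = d v := by
    intro v
    rw [← tauG_eq h4 G.1]
    exact (H85.tauG_degree h4 G.1 v).trans (G.2 v)
  apply Subtype.ext
  rw [H85.tau_val h4]
  unfold H45G.tau
  rw [dif_pos hdeg]
  exact tauG_eq h4 G.1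

/-- `tau` moves `G` exactly when the cross block is a perfect matching. -/
theorem tau_ne_iff {x y z w : Fin n} (h4 : H85.Four x y z w) (G : Omega n d) :
    H85.tau x y z w G ≠ G ↔ H45G.Sep x y z w G.1 := by
  rw [Ne, H85.tau_eq_self_iff h4, sep_iff]
  constructor
  · intro h
    by_contra hcon
    rw [not_or] at hcon
    exact h hcon
  · rintro h ⟨h1, h2⟩
    rcases h with h | h
    · exact h1 h
    · exact h2 h

/-- The two conditional expectations given `G - {x, y}` and the matching event coincide. -/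
theorem cexp_kapX_eq {x y z w : Fin n} (h4 : H85.Four x y z w) :
    cexp (H85.kapX (d := d) x y z w) = H45G.GRX (d := d) x y z w := by
  unfold H45G.GRX
  apply cexp_congr_fibres
  intro G G'
  unfold H85.kapX
  rw [Prod.mk.injEq, Prod.mk.injEq, decide_eq_decide, tau_ne_iff h4, tau_ne_iff h4, eq_iff_iff]

/-- The two correction terms coincide. -/
theorem K_eq {x y z w : Fin n} (h4 : H85.Four x y z w) (f : Omega n d → ℝ) :
    H85.K x y z w f = H45G.K x y z w f := by
  unfold H85.K H45G.K
  refine Finset.sum_congr rfl (fun G _ => ?_)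
  rw [cexp_kapX_eq h4]
  exact if_congr (tau_ne_iff h4 G) rfl rfl

end Vale.Agent.Lib.P335.H30
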